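import Vale.Agent.P361.B.FinUpper

/-!
P361, stage 3 (Bloch's law with the constant), local part: couplings `1_adj - κ`, `κ ≥ 0`.
Definitions.
-/

namespace Vale.Agent.P361.BK

open Finset Vale.Agent.P361.B

variable {V : Type*} [Fintype V] [DecidableEq V]

/-- Conditions on the reward kernel: symmetric, nonnegative, row sums at most `μ`, entries at
most `ν`. -/
structure IsKer (κ : V → V → ℝ) (μ ν : ℝ) : Prop where
  symm : ∀ x y, κ x y = κ y x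
  nonneg : ∀ x y, 0 ≤ κ x y
  diag : ∀ x, κ x x = 0
  row : ∀ x, ∑ y, κ x y ≤ μ
  le : ∀ x y, κ x y ≤ ν

/-- `ψ` is a normalized eigenvector with `N` magnons and energy `E` (weak form) of the
Hamiltonian with couplings `1_adj - κ`. -/
structure IsEigK (n : ℕ) (adj : V → V → Prop) [DecidableRel adj] (κ : V → V → ℝ) (N : ℕ) (E : ℝ)
    (ψ : (V → ℕ) → ℝ) : Prop where
  supp : ∀ ζ, ζ ∉ occBox V n → ψ ζ = 0
  sect : ∀ ζ, ∑ x, ζ x ≠ N → ψ ζ = 0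
  norm : ∑ ζ ∈ occBox V n, ψ ζ ^ 2 = 1
  weak : ∀ X : (V → ℕ) → ℝ, E * ∑ ζ ∈ occBox V n, X ζ * ψ ζ ^ 2 =
    1 / 4 * (∑ x, ∑ y, (if adj x y then
      ∑ σ ∈ occBox V n, edgeT n x y (fun ζ => X ζ * ψ ζ) σ * edgeT n x y ψ σ else 0)) -
    1 / 4 * ∑ x, ∑ y, κ x y *
      ∑ σ ∈ occBox V n, edgeT n x y (fun ζ => X ζ * ψ ζ) σ * edgeT n x y ψ σ

/-- Boson hopping form of a kernel. -/
noncomputable def kforW (n : ℕ) (κ : V → V → ℝ) (ψ : (V → ℕ) → ℝ) : ℝ :=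
  (n : ℝ) / 4 * ∑ x, ∑ y, κ x y * ∑ σ ∈ occBox V n,
    (Real.sqrt ((σ x : ℝ) + 1) * ψ (σ + Pi.single x 1) -
      Real.sqrt ((σ y : ℝ) + 1) * ψ (σ + Pi.single y 1)) ^ 2

/-- The factor `1 - δ_uv / n`. -/
noncomputable def dF (n : ℕ) (u v : V) : ℝ := 1 - (if u = v then (1 : ℝ) else 0) / n

end Vale.Agent.P361.BK
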