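import Vale.Agent.P361.BK.Basic

set_option linter.unusedSectionVars false

/-!
P361, stage 3, local part: the hopping form of an eigenvector (couplings `1_adj - κ`).
-/

namespace Vale.Agent.P361.BK

open Finset Vale.Agent.P361.B

variable {V : Type*} [Fintype V] [DecidableEq V]
variable {n N : ℕ} {adj : V → V → Prop} [DecidableRel adj] {κ : V → V → ℝ} {μ ν : ℝ}
variable {E : ℝ} {ψ : (V → ℕ) → ℝ}

private lemma hopK_pointwise {m a b A B : ℝ} (ha : 0 ≤ a) (hb : 0 ≤ b) (ham : a ≤ m) (hbm : b ≤ m) :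
    (Real.sqrt (m - a) * A - Real.sqrt (m - b) * B) ^ 2 ≤ m * (B - A) ^ 2 +
      (a + b) * (A ^ 2 + B ^ 2) := by
  have h1 : 0 ≤ m - a := by linarith
  have h2 : 0 ≤ m - b := by linarith
  have s1 := Real.sq_sqrt h1
  have s2 := Real.sq_sqrt h2
  have p1 := Real.sqrt_nonneg (m - a)
  have p2 := Real.sqrt_nonneg (m - b)
  set p := Real.sqrt (m - a)
  set q := Real.sqrt (m - b)
  have hm : 0 ≤ m := ha.trans ham
  have hpq : p * q ≤ m := by nlinarith [sq_nonneg (p - q)]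
  have hpq2 : m - a - b ≤ p * q := by
    rcases le_or_gt (m - a - b) 0 with h | h
    · exact h.trans (mul_nonneg p1 p2)
    · refine le_of_sq_le_sq ?_ (mul_nonneg p1 p2)
      rw [mul_pow, s1, s2]
      nlinarith [mul_nonneg ha hb, mul_nonneg ha h.le, mul_nonneg hb h.le]
  have e1 : (p * A - q * B) ^ 2 = m * (B - A) ^ 2 - (a * A ^ 2 + b * B ^ 2) +
      2 * (m - p * q) * (A * B) := by
    have : (p * A - q * B) ^ 2 = (m - a) * A ^ 2 + (m - b) * B ^ 2 - 2 * (p * q) * (A * B) := by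
      rw [← s1, ← s2]; ring
    rw [this]; ring
  rw [e1]
  have h3 : 2 * (m - p * q) * (A * B) ≤ (m - p * q) * (A ^ 2 + B ^ 2) := by
    nlinarith [mul_nonneg (sub_nonneg.2 hpq) (sq_nonneg (A - B))]
  have h4 : (m - p * q) * (A ^ 2 + B ^ 2) ≤ (a + b) * (A ^ 2 + B ^ 2) :=
    mul_le_mul_of_nonneg_right (by linarith) (by positivity)
  nlinarith [mul_nonneg ha (sq_nonneg A), mul_nonneg hb (sq_nonneg B)]

/-- The weight `∑ (σ_x + σ_y) (σ_y + 1) ψ(σ + δ_y)²`. -/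
private noncomputable def tK (n : ℕ) (ψ : (V → ℕ) → ℝ) (x y : V) : ℝ :=
  ∑ σ ∈ occBox V n, ((σ x : ℝ) + σ y) * (((σ y : ℝ) + 1) * ψ (σ + Pi.single y 1) ^ 2)

private lemma tK_eq (hs : ∀ ζ, ζ ∉ occBox V n → ψ ζ = 0) {x y : V} (hne : x ≠ y) :
    tK n ψ x y = pairFn n ψ x y + pairFn n ψ y y := by
  have hF : ∀ ζ, ζ ∉ occBox V n → (fun ζ => ψ ζ ^ 2) ζ = 0 := by
    intro ζ hζ
    simp only [hs ζ hζ]; norm_num
  have key := sum_shift n y (fun ζ => ψ ζ ^ 2) (fun σ => (σ x : ℝ) + σ y) hF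
  have e1 : tK n ψ x y = ∑ σ ∈ occBox V n, ((σ y : ℝ) + 1) * ψ (σ + Pi.single y 1) ^ 2 *
      ((σ x : ℝ) + σ y) := Finset.sum_congr rfl fun σ _ => by ring
  rw [e1, key, pairFn, pairFn, ← Finset.sum_add_distrib]
  refine Finset.sum_congr rfl fun η _ => ?_
  rcases Nat.eq_zero_or_pos (η y) with h0 | h0
  · rw [h0, if_neg hne]; simp
  · rw [sub_single_apply η x y h0, sub_single_apply η y y h0, if_neg hne, if_pos rfl]
    ring

private lemma sq1 {σ : V → ℕ} {x : V} : (Real.sqrt ((σ x : ℝ) + 1) * ψ (σ + Pi.single x 1)) ^ 2 =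
    ((σ x : ℝ) + 1) * ψ (σ + Pi.single x 1) ^ 2 := by
  rw [mul_pow, Real.sq_sqrt (by positivity)]

private lemma adj_part (hs : ∀ ζ, ζ ∉ occBox V n → ψ ζ = 0)
    (hadj : ∀ x y, adj x y → adj y x) (hirr : ∀ x, ¬ adj x x) :
    kform n adj ψ ≤ 1 / 4 * ∑ x, ∑ y, (if adj x y then
      ∑ σ ∈ occBox V n, edgeT n x y ψ σ ^ 2 else 0) +
      ∑ x, ∑ y, (if adj x y then pairFn n ψ x y + pairFn n ψ y y else 0) := by
  have hmain : kform n adj ψ ≤ 1 / 4 * ∑ x, ∑ y, (if adj x y then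
      ∑ σ ∈ occBox V n, edgeT n x y ψ σ ^ 2 + 2 * (tK n ψ x y + tK n ψ y x) else 0) := by
    unfold kform
    rw [div_eq_mul_one_div, mul_comm (n : ℝ), mul_assoc]
    refine mul_le_mul_of_nonneg_left ?_ (by norm_num)
    rw [Finset.mul_sum]
    refine Finset.sum_le_sum fun x _ => ?_
    rw [Finset.mul_sum]
    refine Finset.sum_le_sum fun y _ => ?_
    by_cases hxy : adj x y
    · rw [if_pos hxy, if_pos hxy, Finset.mul_sum, tK, tK, ← Finset.sum_add_distrib, Finset.mul_sum,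
        ← Finset.sum_add_distrib]
      refine Finset.sum_le_sum fun σ hσ => ?_
      rw [mem_occBox] at hσ
      have := @hop_pointwise (n : ℝ) (σ x) (σ y) (Real.sqrt ((σ y : ℝ) + 1) * ψ (σ + Pi.single y 1))
        (Real.sqrt ((σ x : ℝ) + 1) * ψ (σ + Pi.single x 1)) (by positivity) (by positivity)
        (by exact_mod_cast hσ x) (by exact_mod_cast hσ y)
      rw [sq1, sq1] at this
      refine this.trans (le_of_eq ?_)
      unfold edgeT
      ring
    · rw [if_neg hxy, if_neg hxy, mul_zero]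
  have hsplit : 1 / 4 * ∑ x, ∑ y, (if adj x y then
      ∑ σ ∈ occBox V n, edgeT n x y ψ σ ^ 2 + 2 * (tK n ψ x y + tK n ψ y x) else 0) =
      1 / 4 * ∑ x, ∑ y, (if adj x y then
      ∑ σ ∈ occBox V n, edgeT n x y ψ σ ^ 2 else 0) +
      1 / 2 * (∑ x, ∑ y, (if adj x y then tK n ψ x y else 0) +
        ∑ x, ∑ y, (if adj x y then tK n ψ y x else 0)) := by
    rw [← Finset.sum_add_distrib, Finset.mul_sum, Finset.mul_sum, Finset.mul_sum,
      ← Finset.sum_add_distrib]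
    refine Finset.sum_congr rfl fun x _ => ?_
    rw [← Finset.sum_add_distrib, Finset.mul_sum, Finset.mul_sum, Finset.mul_sum,
      ← Finset.sum_add_distrib]
    refine Finset.sum_congr rfl fun y _ => ?_
    split_ifs <;> ring
  have hsymm : ∑ x, ∑ y, (if adj x y then tK n ψ y x else 0) =
      ∑ x, ∑ y, (if adj x y then tK n ψ x y else 0) := by
    rw [Finset.sum_comm]
    refine Finset.sum_congr rfl fun y _ => Finset.sum_congr rfl fun x _ => ?_
    by_cases hxy : adj x y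
    · rw [if_pos hxy, if_pos (hadj _ _ hxy)]
    · rw [if_neg hxy, if_neg fun h' => hxy (hadj _ _ h')]
  have hfin : ∑ x, ∑ y, (if adj x y then tK n ψ x y else 0) =
      ∑ x, ∑ y, (if adj x y then pairFn n ψ x y + pairFn n ψ y y else 0) := by
    refine Finset.sum_congr rfl fun x _ => Finset.sum_congr rfl fun y _ => ?_
    split_ifs with hxy
    · exact tK_eq hs fun h' => hirr x (by rw [← h'] at hxy; exact hxy)
    · rfl
  rw [hsplit, hsymm, hfin] at hmain
  linarith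

private lemma ker_part (hs : ∀ ζ, ζ ∉ occBox V n → ψ ζ = 0) (hκ : IsKer κ μ ν) :
    1 / 4 * ∑ x, ∑ y, κ x y * ∑ σ ∈ occBox V n, edgeT n x y ψ σ ^ 2 ≤
      kforW n κ ψ + ∑ x, ∑ y, κ x y * (pairFn n ψ x y + pairFn n ψ y y) := by
  have hpt : ∀ x y, κ x y * ∑ σ ∈ occBox V n, edgeT n x y ψ σ ^ 2 ≤
      n * (κ x y * ∑ σ ∈ occBox V n,
        (Real.sqrt ((σ x : ℝ) + 1) * ψ (σ + Pi.single x 1) -
          Real.sqrt ((σ y : ℝ) + 1) * ψ (σ + Pi.single y 1)) ^ 2) +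
      (κ x y * tK n ψ x y + κ x y * tK n ψ y x) := by
    intro x y
    have : κ x y * ∑ σ ∈ occBox V n, edgeT n x y ψ σ ^ 2 ≤ κ x y *
        (n * ∑ σ ∈ occBox V n,
        (Real.sqrt ((σ x : ℝ) + 1) * ψ (σ + Pi.single x 1) -
          Real.sqrt ((σ y : ℝ) + 1) * ψ (σ + Pi.single y 1)) ^ 2 +
        (tK n ψ x y + tK n ψ y x)) := by
      refine mul_le_mul_of_nonneg_left ?_ (hκ.nonneg x y)
      rw [tK, tK, Finset.mul_sum, ← Finset.sum_add_distrib, ← Finset.sum_add_distrib]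
      refine Finset.sum_le_sum fun σ hσ => ?_
      rw [mem_occBox] at hσ
      have := @hopK_pointwise (n : ℝ) (σ x) (σ y)
        (Real.sqrt ((σ y : ℝ) + 1) * ψ (σ + Pi.single y 1))
        (Real.sqrt ((σ x : ℝ) + 1) * ψ (σ + Pi.single x 1)) (by positivity) (by positivity)
        (by exact_mod_cast hσ x) (by exact_mod_cast hσ y)
      rw [sq1, sq1] at this
      unfold edgeT
      linarith
    linarith
  have hsum : ∑ x, ∑ y, κ x y * ∑ σ ∈ occBox V n, edgeT n x y ψ σ ^ 2 ≤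
      n * ∑ x, ∑ y, κ x y * ∑ σ ∈ occBox V n,
        (Real.sqrt ((σ x : ℝ) + 1) * ψ (σ + Pi.single x 1) -
          Real.sqrt ((σ y : ℝ) + 1) * ψ (σ + Pi.single y 1)) ^ 2 +
      (∑ x, ∑ y, κ x y * tK n ψ x y + ∑ x, ∑ y, κ x y * tK n ψ y x) := by
    rw [Finset.mul_sum, ← Finset.sum_add_distrib, ← Finset.sum_add_distrib]
    refine Finset.sum_le_sum fun x _ => ?_
    rw [Finset.mul_sum, ← Finset.sum_add_distrib, ← Finset.sum_add_distrib]
    exact Finset.sum_le_sum fun y _ => hpt x y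
  have hsymm : ∑ x, ∑ y, κ x y * tK n ψ y x = ∑ x, ∑ y, κ x y * tK n ψ x y := by
    rw [Finset.sum_comm]
    exact Finset.sum_congr rfl fun y _ => Finset.sum_congr rfl fun x _ => by rw [hκ.symm]
  have hfin : ∑ x, ∑ y, κ x y * tK n ψ x y =
      ∑ x, ∑ y, κ x y * (pairFn n ψ x y + pairFn n ψ y y) := by
    refine Finset.sum_congr rfl fun x _ => Finset.sum_congr rfl fun y _ => ?_
    by_cases hxy : x = y
    · subst hxy; rw [hκ.diag]; ring
    · rw [tK_eq hs hxy]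
  have hpos : 0 ≤ ∑ x, ∑ y, κ x y * (pairFn n ψ x y + pairFn n ψ y y) :=
    Finset.sum_nonneg fun x _ => Finset.sum_nonneg fun y _ =>
      mul_nonneg (hκ.nonneg x y) (add_nonneg (pairFn_nonneg x y) (pairFn_nonneg y y))
  rw [hsymm, hfin] at hsum
  unfold kforW
  linarith

theorem IsEigK.kform_le (h : IsEigK n adj κ N E ψ) (hκ : IsKer κ μ ν)
    (hadj : ∀ x y, adj x y → adj y x) (hirr : ∀ x, ¬ adj x x) :
    kform n adj ψ - kforW n κ ψ ≤ E +
      ∑ x, ∑ y, (if adj x y then pairFn n ψ x y + pairFn n ψ y y else 0) +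
      ∑ x, ∑ y, κ x y * (pairFn n ψ x y + pairFn n ψ y y) := by
  have hE : E = 1 / 4 * ∑ x, ∑ y, (if adj x y then
      ∑ σ ∈ occBox V n, edgeT n x y ψ σ ^ 2 else 0) -
      1 / 4 * ∑ x, ∑ y, κ x y * ∑ σ ∈ occBox V n, edgeT n x y ψ σ ^ 2 := by
    have := h.weak (fun _ => 1)
    simp only [one_mul, h.norm, mul_one] at this
    rw [this]
    simp only [sq]
  have h1 := adj_part h.supp hadj hirr
  have h2 := ker_part h.supp hκ
  linarith

end Vale.Agent.P361.BK
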