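import Vale.Agent.P361.BK.Basic

set_option linter.unusedSectionVars false

/-!
P361, stage 3, local part: comparison with free bosons for couplings `1_adj - κ`.
-/

namespace Vale.Agent.P361.BK

open Finset Vale.Agent.P361.B

variable {V : Type*} [Fintype V] [DecidableEq V]
variable {n N : ℕ} {adj : V → V → Prop} [DecidableRel adj] {κ : V → V → ℝ}
variable {e : V → V → ℝ} {lam lam' : V → ℝ} {ψ : (V → ℕ) → ℝ}

private lemma bos_alg (hS : Spec adj e lam) (θ : V → ℝ) (ψ : (V → ℕ) → ℝ) :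
    (n : ℝ) / 4 * ((N + 1 : ℝ) * ∑ x : Fin N → V, 2 * ∑ k, θ k *
        (∑ v, e k v * wf (N + 1) ψ (Fin.cons v x)) ^ 2) =
      ∑ k : Fin (N + 1) → V, bosE n θ (occ k) * four e (wf (N + 1) ψ) k ^ 2 := by
  have h7 : ∑ x : Fin N → V, 2 * ∑ k, θ k *
      (∑ v, e k v * wf (N + 1) ψ (Fin.cons v x)) ^ 2 =
      2 * ∑ k : Fin (N + 1) → V, θ (k 0) * four e (wf (N + 1) ψ) k ^ 2 := by
    rw [← Finset.mul_sum, Finset.sum_comm]
    congr 1
    rw [← (Fin.consEquiv fun _ => V).sum_comp, Fintype.sum_prod_type]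
    refine Finset.sum_congr rfl fun k0 _ => ?_
    have h8 := parseval hS (fun x : Fin N → V => ∑ v, e k0 v * wf (N + 1) ψ (Fin.cons v x))
    rw [← Finset.mul_sum, ← h8, Finset.mul_sum]
    refine Finset.sum_congr rfl fun k _ => ?_
    change _ = θ ((Fin.cons k0 k : Fin (N + 1) → V) 0) *
      four e (wf (N + 1) ψ) (Fin.cons k0 k) ^ 2
    rw [four_cons, Fin.cons_zero]
  rw [h7]
  have h9 : ∀ i : Fin (N + 1), ∑ k : Fin (N + 1) → V, θ (k i) * four e (wf (N + 1) ψ) k ^ 2 =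
      ∑ k : Fin (N + 1) → V, θ (k 0) * four e (wf (N + 1) ψ) k ^ 2 := by
    intro i
    rw [← (Equiv.arrowCongr (Equiv.swap 0 i) (Equiv.refl V)).sum_comp]
    refine Finset.sum_congr rfl fun k _ => ?_
    have e1 : (Equiv.arrowCongr (Equiv.swap 0 i) (Equiv.refl V)) k = k ∘ Equiv.swap 0 i := by
      ext j; simp [Equiv.arrowCongr]
    rw [e1, four_perm hS _ (wf_perm ψ)]
    simp
  have h10 : ∑ k : Fin (N + 1) → V, bosE n θ (occ k) * four e (wf (N + 1) ψ) k ^ 2 =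
      (n : ℝ) / 2 * ∑ i : Fin (N + 1), ∑ k : Fin (N + 1) → V,
        θ (k i) * four e (wf (N + 1) ψ) k ^ 2 := by
    rw [Finset.sum_comm, Finset.mul_sum]
    refine Finset.sum_congr rfl fun k _ => ?_
    rw [bosE, sum_lam_occ, ← Finset.sum_mul]
    ring
  rw [h10]
  simp only [h9]
  rw [Finset.sum_const, Finset.card_univ, Fintype.card_fin, nsmul_eq_mul]
  push_cast
  ring

theorem kforW_le (hS : Spec adj e lam)
    (hθ : ∀ f : V → ℝ, ∑ x, ∑ y, κ x y * (f x - f y) ^ 2 ≤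
      2 * ∑ k, (lam k - lam' k) * (∑ x, e k x * f x) ^ 2)
    (h1 : ∀ ζ, ζ ∉ occBox V n → ψ ζ = 0) (h2 : ∀ ζ, ∑ v, ζ v ≠ N → ψ ζ = 0) :
    kforW n κ ψ ≤ ∑ k : Fin N → V, bosE n (fun v => lam v - lam' v) (occ k) *
      four e (wf N ψ) k ^ 2 := by
  rcases N with _ | N
  · have h3 : ∀ (σ : V → ℕ) v, ψ (σ + Pi.single v 1) = 0 := by
      intro σ v
      apply h2
      simp only [Pi.add_apply, Finset.sum_add_distrib]
      rw [Finset.sum_pi_single']
      simp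
    have h4 : kforW n κ ψ = 0 := by
      unfold kforW
      simp [h3]
    rw [h4]
    refine le_of_eq (Finset.sum_eq_zero fun k _ => ?_).symm
    rw [bosE, sum_lam_occ]; simp
  · rw [← bos_alg hS]
    unfold kforW
    refine mul_le_mul_of_nonneg_left ?_ (by positivity)
    have h3 : ∀ v w, κ v w * ∑ σ ∈ occBox V n,
        (Real.sqrt ((σ v : ℝ) + 1) * ψ (σ + Pi.single v 1) -
          Real.sqrt ((σ w : ℝ) + 1) * ψ (σ + Pi.single w 1)) ^ 2 =
        (N + 1 : ℝ) * ∑ x : Fin N → V, κ v w * (wf (N + 1) ψ (Fin.cons v x) -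
          wf (N + 1) ψ (Fin.cons w x)) ^ 2 := by
      intro v w
      rw [hop_sum ψ h1 h2 v w, ← Finset.mul_sum]
      ring
    simp only [h3]
    have h4 : ∑ v, ∑ w, (N + 1 : ℝ) * ∑ x : Fin N → V, κ v w *
        (wf (N + 1) ψ (Fin.cons v x) - wf (N + 1) ψ (Fin.cons w x)) ^ 2 =
        (N + 1 : ℝ) * ∑ x : Fin N → V, ∑ v, ∑ w, κ v w *
        (wf (N + 1) ψ (Fin.cons v x) - wf (N + 1) ψ (Fin.cons w x)) ^ 2 := by
      have h5 := sum_swap3 (Finset.univ : Finset (Fin N → V)) (fun _ => (N + 1 : ℝ))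
        (fun v w x => κ v w *
          (wf (N + 1) ψ (Fin.cons v x) - wf (N + 1) ψ (Fin.cons w x)) ^ 2)
      simp only [← Finset.mul_sum] at h5 ⊢
      exact h5
    rw [h4]
    refine mul_le_mul_of_nonneg_left ?_ (by positivity)
    exact Finset.sum_le_sum fun x _ => hθ (fun v => wf (N + 1) ψ (Fin.cons v x))

theorem kformK_ge (hS : Spec adj e lam) (hadj : ∀ x y, adj x y → adj y x)
    (hθ : ∀ f : V → ℝ, ∑ x, ∑ y, κ x y * (f x - f y) ^ 2 ≤
      2 * ∑ k, (lam k - lam' k) * (∑ x, e k x * f x) ^ 2)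
    (h1 : ∀ ζ, ζ ∉ occBox V n → ψ ζ = 0) (h2 : ∀ ζ, ∑ v, ζ v ≠ N → ψ ζ = 0) :
    ∑ k : Fin N → V, bosE n lam' (occ k) * four e (wf N ψ) k ^ 2 ≤
      kform n adj ψ - kforW n κ ψ := by
  have h3 := kforW_le hS hθ h1 h2
  have h4 := kform_eq hS hadj h1 h2
  have h5 : ∑ k : Fin N → V, bosE n (fun v => lam v - lam' v) (occ k) * four e (wf N ψ) k ^ 2 =
      ∑ k : Fin N → V, bosE n lam (occ k) * four e (wf N ψ) k ^ 2 -
      ∑ k : Fin N → V, bosE n lam' (occ k) * four e (wf N ψ) k ^ 2 := by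
    rw [← Finset.sum_sub_distrib]
    refine Finset.sum_congr rfl fun k _ => ?_
    rw [bosE, bosE, bosE]
    simp only [sub_mul, Finset.sum_sub_distrib]
    ring
  linarith

end Vale.Agent.P361.BK
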